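import Vale.Agent.P365.T2.H24.Share
import Vale.Agent.P365.T2.H213.Spec

/-!
# P365-T2, section X: the static share of a stage `StW` (213's Spec)

From the fields `share` (k4') and `m4` (k6) of `StW.Ok`: for every finite family `F` with
`∑ (F k x - F k y)² ≤ L dsq x y`, the energy content of the static absorption is at most
`2 L exp (-S) N²` as soon as `C1 + 2 ≤ 1/η`.
-/

set_option linter.all false

namespace P365T2.H24

open P365L P365O P365T1 P365L.TL P365T2.H213 Matrix Complex MeasureTheory Filter Topology Set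
open Vale.Agent.P365.J376
open scoped ComplexConjugate ENNReal

variable {N : ℕ} [NeZero N] {W : StW N} {lam E C1 η : ℝ}

theorem eT_pos (h : W.Ok lam E C1 η) (τ : ℝ) (l : Tor N → W.Λ) (x : Tor N) :
    0 < eT W.u W.w τ l x := by
  obtain ⟨b, hb, hbu⟩ := h.u_pos
  have h1 := hbu l x
  have h2 := h.w_nonneg l x
  unfold eT
  have : 0 ≤ Real.exp (-τ) * W.w l x := mul_nonneg (Real.exp_pos _).le h2
  linarith

theorem u_le_eT (h : W.Ok lam E C1 η) (τ : ℝ) (l : Tor N → W.Λ) (x : Tor N) :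
    W.u l x ≤ eT W.u W.w τ l x := by
  have h2 := h.w_nonneg l x
  unfold eT
  have : 0 ≤ Real.exp (-τ) * W.w l x := mul_nonneg (Real.exp_pos _).le h2
  linarith

theorem u_nonneg (h : W.Ok lam E C1 η) (l : Tor N → W.Λ) (x : Tor N) : 0 ≤ W.u l x := by
  obtain ⟨b, hb, hbu⟩ := h.u_pos
  exact hb.le.trans (hbu l x)

/-- content of the static absorption -/
noncomputable def ShS {κ : Type} [Fintype κ] (W : StW N) (E : ℝ) (F : κ → Tor N → ℝ) (τ : ℝ) :
    ℝ :=
  W.Av E τ fun l V => ∑ x, W.u l x * ∑ k, Mf (AT N) V (F k) x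

/-- two radii form -/
theorem shS_le (h : W.Ok lam E C1 η) (τ : ℝ) {κ : Type} [Fintype κ] {F : κ → Tor N → ℝ}
    {L : ℝ} (hL : 0 < L) (hF : ∀ x y, ∑ k, (F k y - F k x) ^ 2 ≤ L * dsq x y) {R : ℝ}
    (hR : 0 < R) :
    ShS W E F τ ≤ L * (R ^ 2 * W.EM E W.u τ + (R ^ 2)⁻¹ * W.M4 E τ) := by
  haveI := h.prob
  have h1 := share_AvG (A := AT N) (ν := W.ν) (E := E) (AT_symm N) h.p_nonneg
    (e := eT W.u W.w τ) (u := W.u) (eT_pos h τ) (u_nonneg h) (u_le_eT h τ) (F := F)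
    (q := fun x a => L * dsq x a) hF (R := Real.sqrt L * R) (by positivity)
  have h2 : (Real.sqrt L * R) ^ 2 = L * R ^ 2 := by
    rw [mul_pow, Real.sq_sqrt hL.le]
  rw [h2] at h1
  refine h1.trans (le_of_eq ?_)
  have h3 : AvG W.p W.ν E (eT W.u W.w τ) (fun _ V => ∑ x, ∑ y,
        (-(V x).im) * (-(V y).im) * KK (AT N) V x y * (L * dsq x y) ^ 2) =
      L ^ 2 * W.M4 E τ := by
    unfold StW.M4 StW.Av AvG Ex
    rw [Finset.mul_sum]
    refine Finset.sum_congr rfl fun l _ => ?_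
    rw [← mul_assoc, mul_comm (L ^ 2) (∏ x, W.p (l x)), mul_assoc]
    congr 1
    rw [← integral_const_mul]
    refine integral_congr_ae (Eventually.of_forall fun v => ?_)
    simp only
    rw [Finset.mul_sum]
    refine Finset.sum_congr rfl fun x _ => ?_
    rw [Finset.mul_sum]
    refine Finset.sum_congr rfl fun y _ => ?_
    ring
  rw [h3]
  unfold StW.EM StW.Av
  field_simp

/-- **static share of the good part** -/
theorem shS_small (h : W.Ok lam E C1 η) (hη : 0 < η) (hη1 : C1 + 2 ≤ 1 / η) (hS : 0 ≤ W.S)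
    {τ : ℝ} (hτ : τ ∈ Set.Icc 0 W.S) {κ : Type} [Fintype κ] {F : κ → Tor N → ℝ} {L : ℝ}
    (hL : 0 < L) (hF : ∀ x y, ∑ k, (F k y - F k x) ^ 2 ≤ L * dsq x y) :
    ShS W E F τ ≤ 2 * L * Real.exp (-W.S) * (N : ℝ) ^ 2 := by
  set r : ℝ := Real.exp ((C1 + 1) * W.S / 2) with hr
  have hr2 : r ^ 2 = Real.exp ((C1 + 1) * W.S) := by
    rw [hr, ← Real.exp_nat_mul]
    congr 1
    push_cast
    ring
  refine (shS_le h τ hL hF (Real.exp_pos _ : 0 < r)).trans ?_
  rw [hr2]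
  have h1 := h.share τ hτ
  have h2 := h.m4 τ hτ
  have h3 : Real.exp ((C1 + 1) * W.S) * W.EM E W.u τ ≤ Real.exp (-W.S) * (N : ℝ) ^ 2 := by
    calc Real.exp ((C1 + 1) * W.S) * W.EM E W.u τ
        ≤ Real.exp ((C1 + 1) * W.S) * (Real.exp (-(W.S / η)) * (N : ℝ) ^ 2) :=
          mul_le_mul_of_nonneg_left h1 (Real.exp_pos _).le
      _ = Real.exp ((C1 + 1) * W.S - W.S / η) * (N : ℝ) ^ 2 := by
          rw [← mul_assoc, ← Real.exp_add, sub_eq_add_neg]
      _ ≤ _ := by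
          refine mul_le_mul_of_nonneg_right (Real.exp_le_exp.2 ?_) (sq_nonneg _)
          have := mul_le_mul_of_nonneg_right hη1 hS
          rw [one_div, inv_mul_eq_div] at this
          linarith
  have h4 : (Real.exp ((C1 + 1) * W.S))⁻¹ * W.M4 E τ ≤ Real.exp (-W.S) * (N : ℝ) ^ 2 := by
    calc (Real.exp ((C1 + 1) * W.S))⁻¹ * W.M4 E τ
        ≤ (Real.exp ((C1 + 1) * W.S))⁻¹ * (Real.exp (C1 * W.S) * (N : ℝ) ^ 2) :=
          mul_le_mul_of_nonneg_left h2 (inv_nonneg.2 (Real.exp_pos _).le)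
      _ = _ := by
          rw [← Real.exp_neg, ← mul_assoc, ← Real.exp_add]
          congr 2
          ring
  calc L * (Real.exp ((C1 + 1) * W.S) * W.EM E W.u τ +
        (Real.exp ((C1 + 1) * W.S))⁻¹ * W.M4 E τ)
      ≤ L * (Real.exp (-W.S) * (N : ℝ) ^ 2 + Real.exp (-W.S) * (N : ℝ) ^ 2) :=
        mul_le_mul_of_nonneg_left (add_le_add h3 h4) hL.le
    _ = _ := by ring

/-- the positions -/
theorem shS_phi (h : W.Ok lam E C1 η) (hη : 0 < η) (hη1 : C1 + 2 ≤ 1 / η) (hS : 0 ≤ W.S)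
    {τ : ℝ} (hτ : τ ∈ Set.Icc 0 W.S) :
    ShS W E (phi N) τ ≤ 2 * Real.exp (-W.S) * (N : ℝ) ^ 2 := by
  have := shS_small h hη hη1 hS hτ (F := phi N) one_pos fun x y => by
    rw [one_mul, dsq_comm, dsq]
  simpa using this

end P365T2.H24
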