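import Vale.Agent.P365.T2.Coll863

/-!
# P365 T2, law error: the Hilbert-Schmidt block (87's 20676), two-index multiplier (helper24)

`Q_xu = ∑_y e_y k_y G_xy G_yu` (863's `Qk`, any complex `k`):
* `coll2`   : `∑_xu e_x e_u (f_x-f_u)² |Q_xu|² ≤ 4 ∑_y |k_y|² e_y ∑_x e_x (f_x-f_y)² |G_xy|²`;
* `coll2_t` : the same for `t_xu = ∑_j c_j (F_j x - F_j u)²`;
* `hs_term` : `|∑_xu L_xu e_x e_u t_xu conj G_xu Q_xu| ≤ 2 T √(∑ e e t |G|²) √(∑_y |k_y|² e_y ∑_x e_x t |G|²)`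
  for any two-index multiplier `L` with `|L_xu| ≤ T`.
-/

set_option linter.all false

namespace P365T2.H24

open Matrix Complex P365L P365T2.Coll863
open scoped ComplexConjugate

variable {ι : Type*} [Fintype ι] [DecidableEq ι]
variable {A : Matrix ι ι ℝ} {W : ι → ℂ}

/-- **energy form of `G K G`**, quadratic in `k` -/
theorem coll2 (hA : A.IsSymm) (hW : ∀ x, (W x).im < 0) (k : ι → ℂ) (f : ι → ℝ) :
    ∑ x, ∑ u, ab W x * ab W u * (f x - f u) ^ 2 * ‖Qk A W k x u‖ ^ 2 ≤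
      4 * ∑ y, ‖k y‖ ^ 2 * (ab W y * ∑ x, ab W x * (f x - f y) ^ 2 * KK A W x y) := by
  have he := ab_pos hW
  set P : ι → ι → ℂ := fun x u => gv A W (fun y => k y * ((f x - f y : ℝ) : ℂ) * Gr A W x y) u
    with hP
  have h1 : ∀ x u, ((f x - f u : ℝ) : ℂ) * Qk A W k x u = P x u - P u x := by
    intro x u
    simp only [hP, gv, Qk]
    rw [Finset.mul_sum, ← Finset.sum_sub_distrib]
    refine Finset.sum_congr rfl fun y _ => ?_
    rw [Gr_symm hA y x, Gr_symm hA u y]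
    push_cast
    ring
  have h2 : ∀ x u, (f x - f u) ^ 2 * ‖Qk A W k x u‖ ^ 2 ≤
      2 * ‖P x u‖ ^ 2 + 2 * ‖P u x‖ ^ 2 := by
    intro x u
    have e1 : (f x - f u) ^ 2 * ‖Qk A W k x u‖ ^ 2 = ‖P x u - P u x‖ ^ 2 := by
      rw [← h1, norm_mul, Complex.norm_real, Real.norm_eq_abs, mul_pow, sq_abs]
    rw [e1]
    have e2 := norm_sub_le (P x u) (P u x)
    have e3 := pow_le_pow_left₀ (norm_nonneg _) e2 2
    nlinarith [sq_nonneg (‖P x u‖ - ‖P u x‖)]
  set R := ∑ x, ab W x * ∑ u, ab W u * ‖P x u‖ ^ 2 with hR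
  have h3 : ∑ x, ∑ u, ab W x * ab W u * (f x - f u) ^ 2 * ‖Qk A W k x u‖ ^ 2 ≤ 4 * R := by
    have k1 : ∀ x, ∑ u, ab W x * ab W u * (f x - f u) ^ 2 * ‖Qk A W k x u‖ ^ 2 ≤
        ∑ u, (2 * (ab W x * (ab W u * ‖P x u‖ ^ 2)) + 2 * (ab W u * (ab W x * ‖P u x‖ ^ 2))) := by
      intro x
      refine Finset.sum_le_sum fun u _ => ?_
      have := mul_le_mul_of_nonneg_left (h2 x u) (mul_nonneg (he x).le (he u).le)
      linarith
    refine (Finset.sum_le_sum fun x _ => k1 x).trans (le_of_eq ?_)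
    simp only [Finset.sum_add_distrib, ← Finset.mul_sum]
    have k2 : ∑ x, ∑ u, ab W u * (ab W x * ‖P u x‖ ^ 2) = R := by
      rw [Finset.sum_comm, hR]
      refine Finset.sum_congr rfl fun x _ => ?_
      rw [Finset.mul_sum]
    rw [k2, ← hR]
    ring
  have h4 : R ≤ ∑ y, ‖k y‖ ^ 2 * (ab W y * ∑ x, ab W x * (f x - f y) ^ 2 * KK A W x y) := by
    have k1 : ∀ x, ab W x * ∑ u, ab W u * ‖P x u‖ ^ 2 ≤
        ∑ y, (‖k y‖ ^ 2 * (ab W y * (ab W x * (f x - f y) ^ 2 * KK A W x y))) := by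
      intro x
      have e1 := mul_le_mul_of_nonneg_left
        (contr hA hW (fun y => k y * ((f x - f y : ℝ) : ℂ) * Gr A W x y)) (he x).le
      refine e1.trans (le_of_eq ?_)
      rw [Finset.mul_sum]
      refine Finset.sum_congr rfl fun y _ => ?_
      rw [norm_mul, norm_mul, Complex.norm_real, Real.norm_eq_abs, KK, mul_pow, mul_pow, sq_abs]
      ring
    refine (Finset.sum_le_sum fun x _ => k1 x).trans (le_of_eq ?_)
    rw [Finset.sum_comm]
    refine Finset.sum_congr rfl fun y _ => ?_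
    rw [Finset.mul_sum, Finset.mul_sum]
  linarith

/-- the same for the kernel `∑_j c_j (F_j x - F_j u)²` -/
theorem coll2_t {κ : Type*} (J : Finset κ) (hA : A.IsSymm) (hW : ∀ x, (W x).im < 0)
    (k : ι → ℂ) (c : κ → ℝ) (hc : ∀ j ∈ J, 0 ≤ c j) (F : κ → ι → ℝ) (t : ι → ι → ℝ)
    (ht : ∀ x u, t x u = ∑ j ∈ J, c j * (F j x - F j u) ^ 2) :
    ∑ x, ∑ u, ab W x * ab W u * t x u * ‖Qk A W k x u‖ ^ 2 ≤
      4 * ∑ y, ‖k y‖ ^ 2 * (ab W y * ∑ x, ab W x * t x y * KK A W x y) := by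
  have k1 : ∑ x, ∑ u, ab W x * ab W u * t x u * ‖Qk A W k x u‖ ^ 2 =
      ∑ j ∈ J, c j * ∑ x, ∑ u, ab W x * ab W u * (F j x - F j u) ^ 2 * ‖Qk A W k x u‖ ^ 2 := by
    calc ∑ x, ∑ u, ab W x * ab W u * t x u * ‖Qk A W k x u‖ ^ 2
        = ∑ x, ∑ u, ∑ j ∈ J,
            c j * (ab W x * ab W u * (F j x - F j u) ^ 2 * ‖Qk A W k x u‖ ^ 2) := by
          refine Finset.sum_congr rfl fun x _ => Finset.sum_congr rfl fun u _ => ?_
          rw [ht, Finset.mul_sum, Finset.sum_mul]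
          exact Finset.sum_congr rfl fun j _ => by ring
      _ = ∑ x, ∑ j ∈ J, c j *
            ∑ u, ab W x * ab W u * (F j x - F j u) ^ 2 * ‖Qk A W k x u‖ ^ 2 := by
          refine Finset.sum_congr rfl fun x _ => ?_
          rw [Finset.sum_comm]
          exact Finset.sum_congr rfl fun j _ => by rw [Finset.mul_sum]
      _ = _ := by
          rw [Finset.sum_comm]
          exact Finset.sum_congr rfl fun j _ => by rw [Finset.mul_sum]
  have k2 : ∑ y, ‖k y‖ ^ 2 * (ab W y * ∑ x, ab W x * t x y * KK A W x y) =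
      ∑ j ∈ J, c j * ∑ y, ‖k y‖ ^ 2 * (ab W y * ∑ x, ab W x * (F j x - F j y) ^ 2 * KK A W x y) := by
    calc ∑ y, ‖k y‖ ^ 2 * (ab W y * ∑ x, ab W x * t x y * KK A W x y)
        = ∑ y, ∑ j ∈ J, c j *
            (‖k y‖ ^ 2 * (ab W y * ∑ x, ab W x * (F j x - F j y) ^ 2 * KK A W x y)) := by
          refine Finset.sum_congr rfl fun y _ => ?_
          have e1 : ∑ x, ab W x * t x y * KK A W x y =
              ∑ j ∈ J, c j * ∑ x, ab W x * (F j x - F j y) ^ 2 * KK A W x y := by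
            calc ∑ x, ab W x * t x y * KK A W x y
                = ∑ x, ∑ j ∈ J, c j * (ab W x * (F j x - F j y) ^ 2 * KK A W x y) := by
                  refine Finset.sum_congr rfl fun x _ => ?_
                  rw [ht, Finset.mul_sum, Finset.sum_mul]
                  exact Finset.sum_congr rfl fun j _ => by ring
              _ = _ := by
                  rw [Finset.sum_comm]
                  exact Finset.sum_congr rfl fun j _ => by rw [Finset.mul_sum]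
          rw [e1, Finset.mul_sum, Finset.mul_sum]
          exact Finset.sum_congr rfl fun j _ => by ring
      _ = _ := by
          rw [Finset.sum_comm]
          exact Finset.sum_congr rfl fun j _ => by rw [Finset.mul_sum]
  rw [k1, k2, Finset.mul_sum]
  refine Finset.sum_le_sum fun j hj => ?_
  have e1 := mul_le_mul_of_nonneg_left (coll2 hA hW k (F j)) (hc j hj)
  linarith

/-- **the Hilbert-Schmidt term**, any two-index multiplier `L` with `|L_xu| ≤ T` -/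
theorem hs_term {κ : Type*} (J : Finset κ) (hA : A.IsSymm) (hW : ∀ x, (W x).im < 0)
    (k : ι → ℂ) (c : κ → ℝ) (hc : ∀ j ∈ J, 0 ≤ c j) (F : κ → ι → ℝ) (t : ι → ι → ℝ)
    (ht : ∀ x u, t x u = ∑ j ∈ J, c j * (F j x - F j u) ^ 2) {L : ι → ι → ℂ} {T : ℝ}
    (hT : 0 ≤ T) (hL : ∀ x u, ‖L x u‖ ≤ T * t x u) :
    ‖∑ x, ∑ u, ((ab W x * ab W u : ℝ) : ℂ) * L x u * conj (Gr A W x u) * Qk A W k x u‖ ≤
      2 * T * Real.sqrt (∑ x, ∑ u, ab W x * ab W u * t x u * KK A W x u) *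
        Real.sqrt (∑ y, ‖k y‖ ^ 2 * (ab W y * ∑ x, ab W x * t x y * KK A W x y)) := by
  have he := ab_pos hW
  have ht0 : ∀ x u, 0 ≤ t x u := fun x u => by
    rw [ht]
    exact Finset.sum_nonneg fun j hj => mul_nonneg (hc j hj) (sq_nonneg _)
  set X := ∑ x, ∑ u, ab W x * ab W u * t x u * KK A W x u with hX
  set Y := ∑ x, ∑ u, ab W x * ab W u * t x u * ‖Qk A W k x u‖ ^ 2 with hY
  set Y' := ∑ y, ‖k y‖ ^ 2 * (ab W y * ∑ x, ab W x * t x y * KK A W x y) with hY'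
  have hY1 : Y ≤ 4 * Y' := coll2_t J hA hW k c hc F t ht
  have hX0 : 0 ≤ X := Finset.sum_nonneg fun x _ => Finset.sum_nonneg fun u _ =>
    mul_nonneg (mul_nonneg (mul_nonneg (he x).le (he u).le) (ht0 _ _)) (KK_nonneg _ _)
  have hY0 : 0 ≤ Y := Finset.sum_nonneg fun x _ => Finset.sum_nonneg fun u _ =>
    mul_nonneg (mul_nonneg (mul_nonneg (he x).le (he u).le) (ht0 _ _)) (sq_nonneg _)
  set Z := ∑ x, ∑ u, ab W x * ab W u * t x u * (‖Gr A W x u‖ * ‖Qk A W k x u‖) with hZ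
  have h1 : ‖∑ x, ∑ u, ((ab W x * ab W u : ℝ) : ℂ) * L x u * conj (Gr A W x u) *
      Qk A W k x u‖ ≤ T * Z := by
    rw [hZ, Finset.mul_sum]
    refine (norm_sum_le _ _).trans (Finset.sum_le_sum fun x _ => ?_)
    rw [Finset.mul_sum]
    refine (norm_sum_le _ _).trans (Finset.sum_le_sum fun u _ => ?_)
    rw [norm_mul, norm_mul, norm_mul, Complex.norm_real, Real.norm_eq_abs, RCLike.norm_conj,
      abs_mul, abs_of_pos (he x), abs_of_pos (he u)]
    have e1 : 0 ≤ ab W x * ab W u * (‖Gr A W x u‖ * ‖Qk A W k x u‖) :=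
      mul_nonneg (mul_nonneg (he x).le (he u).le) (by positivity)
    have e2 := mul_le_mul_of_nonneg_right (hL x u) e1
    linarith
  have h2 : Z ^ 2 ≤ X * Y := by
    have e0 := Finset.sum_sq_le_sum_mul_sum_of_sq_eq_mul (Finset.univ : Finset (ι × ι))
      (r := fun p => ab W p.1 * ab W p.2 * t p.1 p.2 * (‖Gr A W p.1 p.2‖ * ‖Qk A W k p.1 p.2‖))
      (f := fun p => ab W p.1 * ab W p.2 * t p.1 p.2 * KK A W p.1 p.2)
      (g := fun p => ab W p.1 * ab W p.2 * t p.1 p.2 * ‖Qk A W k p.1 p.2‖ ^ 2)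
      (fun p _ => mul_nonneg (mul_nonneg (mul_nonneg (he _).le (he _).le) (ht0 _ _))
        (KK_nonneg _ _))
      (fun p _ => mul_nonneg (mul_nonneg (mul_nonneg (he _).le (he _).le) (ht0 _ _))
        (sq_nonneg _))
      (fun p _ => by rw [KK]; ring)
    rw [Fintype.sum_prod_type, Fintype.sum_prod_type, Fintype.sum_prod_type] at e0
    exact e0
  have h3 : Z ≤ Real.sqrt X * Real.sqrt Y := by
    rw [← Real.sqrt_mul hX0]
    exact Real.le_sqrt_of_sq_le h2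
  have h4 : Real.sqrt Y ≤ 2 * Real.sqrt Y' := by
    have e1 : Real.sqrt (4 * Y') = 2 * Real.sqrt Y' := by
      rw [Real.sqrt_mul (by norm_num), show (4 : ℝ) = 2 ^ 2 by norm_num,
        Real.sqrt_sq (by norm_num)]
    rw [← e1]
    exact Real.sqrt_le_sqrt hY1
  calc _ ≤ T * Z := h1
    _ ≤ T * (Real.sqrt X * Real.sqrt Y) := mul_le_mul_of_nonneg_left h3 hT
    _ ≤ T * (Real.sqrt X * (2 * Real.sqrt Y')) :=
        mul_le_mul_of_nonneg_left (mul_le_mul_of_nonneg_left h4 (Real.sqrt_nonneg _)) hT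
    _ = _ := by ring

end P365T2.H24
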