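import Vale.Agent.P365.V4.Def


/-!
# P365-T2, section X: the static share (761 (P1), 346 (S2), term `Z` of 862)

`u` = static part of the profile `e`.  The energy content of the static part is at most
`R² * (mass of the static part) + R⁻² * (fourth moment energy)`.
-/

set_option linter.all false

namespace P365T2.H24

open P365L P365O P365T1 P365L.TL Matrix Complex MeasureTheory Filter Topology Set
open Vale.Agent.P365.J376
open scoped ComplexConjugate ENNReal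

section det

variable {ι : Type*} [Fintype ι] [DecidableEq ι] {A : Matrix ι ι ℝ} {W : ι → ℂ}
  {κ : Type*} [Fintype κ]

/-- fourth moment of the energy at `x`: `∑ e_a K_xa q(x,a)²` -/
noncomputable def Q4 (A : Matrix ι ι ℝ) (W : ι → ℂ) (q : ι → ι → ℝ) (x : ι) : ℝ :=
  ∑ a, (-(W a).im) * KK A W x a * q x a ^ 2

theorem Q4_nonneg (hW : ∀ x, (W x).im < 0) (q : ι → ι → ℝ) (x : ι) : 0 ≤ Q4 A W q x :=
  Finset.sum_nonneg fun a _ =>
    mul_nonneg (mul_nonneg (by linarith [hW a]) (KK_nonneg _ _)) (sq_nonneg _)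

theorem sum_Mf_eq (F : κ → ι → ℝ) (x : ι) :
    ∑ k, Mf A W (F k) x = ∑ a, (-(W a).im) * KK A W x a * ∑ k, (F k a - F k x) ^ 2 := by
  unfold Mf
  rw [Finset.sum_comm]
  refine Finset.sum_congr rfl fun a _ => ?_
  rw [Finset.mul_sum]

/-- content at `x`: near part and far part; `q x a` any upper bound of the squared distance -/
theorem sum_Mf_le (hA : A.IsSymm) (hW : ∀ x, (W x).im < 0) {F : κ → ι → ℝ} {q : ι → ι → ℝ}
    (hq : ∀ x a, ∑ k, (F k a - F k x) ^ 2 ≤ q x a) (x : ι) {R : ℝ} (hR : 0 < R) :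
    ∑ k, Mf A W (F k) x ≤ R ^ 2 * mm A W x + (R ^ 2)⁻¹ * Q4 A W q x := by
  rw [mm_eq hA hW, sum_Mf_eq]
  unfold Q4
  rw [Finset.mul_sum, Finset.mul_sum, ← Finset.sum_add_distrib]
  refine Finset.sum_le_sum fun a _ => ?_
  have h1 : 0 ≤ (-(W a).im) * KK A W x a :=
    mul_nonneg (by linarith [hW a]) (KK_nonneg _ _)
  have hR2 : 0 < R ^ 2 := by positivity
  have hq0 : 0 ≤ q x a := (Finset.sum_nonneg fun k _ => sq_nonneg _).trans (hq x a)
  have h2 : q x a ≤ R ^ 2 + (R ^ 2)⁻¹ * q x a ^ 2 := by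
    have h3 : 0 ≤ (R ^ 2)⁻¹ * (q x a - R ^ 2) ^ 2 := by positivity
    have h4 : (R ^ 2)⁻¹ * (q x a - R ^ 2) ^ 2 = (R ^ 2)⁻¹ * q x a ^ 2 - 2 * q x a + R ^ 2 := by
      field_simp
      ring
    nlinarith
  calc (-(W a).im) * KK A W x a * ∑ k, (F k a - F k x) ^ 2
      ≤ (-(W a).im) * KK A W x a * q x a := mul_le_mul_of_nonneg_left (hq x a) h1
    _ ≤ (-(W a).im) * KK A W x a * (R ^ 2 + (R ^ 2)⁻¹ * q x a ^ 2) :=
        mul_le_mul_of_nonneg_left h2 h1
    _ = _ := by ring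

/-- **(S) pointwise static share** -/
theorem share_pt (hA : A.IsSymm) (hW : ∀ x, (W x).im < 0) {F : κ → ι → ℝ} {q : ι → ι → ℝ}
    (hq : ∀ x a, ∑ k, (F k a - F k x) ^ 2 ≤ q x a) {R : ℝ} (hR : 0 < R) {u : ι → ℝ}
    (hu0 : ∀ x, 0 ≤ u x) (hu : ∀ x, u x ≤ -(W x).im) :
    ∑ x, u x * ∑ k, Mf A W (F k) x ≤
      R ^ 2 * ∑ x, u x * mm A W x + (R ^ 2)⁻¹ * ∑ x, (-(W x).im) * Q4 A W q x := by
  rw [Finset.mul_sum, Finset.mul_sum, ← Finset.sum_add_distrib]
  refine Finset.sum_le_sum fun x _ => ?_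
  have h1 := mul_le_mul_of_nonneg_left (sum_Mf_le hA hW hq x hR) (hu0 x)
  have h2 : 0 ≤ (R ^ 2)⁻¹ * Q4 A W q x := mul_nonneg (by positivity) (Q4_nonneg hW q x)
  have h3 := mul_le_mul_of_nonneg_right (hu x) h2
  nlinarith

/-- the same quantity, seen from the partners: `∑_x ∑_a e_x u_a K_xa |F a - F x|²` -/
theorem share_partner (hA : A.IsSymm) (F : κ → ι → ℝ) (u : ι → ℝ) :
    ∑ x, ∑ a, (-(W x).im) * u a * KK A W x a * ∑ k, (F k a - F k x) ^ 2 =
      ∑ x, u x * ∑ k, Mf A W (F k) x := by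
  rw [Finset.sum_comm]
  refine Finset.sum_congr rfl fun a _ => ?_
  rw [sum_Mf_eq, Finset.mul_sum]
  refine Finset.sum_congr rfl fun x _ => ?_
  rw [KK_symm hA a x]
  have : ∑ k, (F k a - F k x) ^ 2 = ∑ k, (F k x - F k a) ^ 2 :=
    Finset.sum_congr rfl fun k _ => by ring
  rw [this]
  ring

end det

/-! ### averages -/

section avg

variable {ι : Type*} [Fintype ι] [DecidableEq ι] {A : Matrix ι ι ℝ}
  {Λ : Type*} [Fintype Λ] {p : Λ → ℝ} {ν : Λ → Measure ℝ} {E : ℝ}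
  {κ : Type*} [Fintype κ]

/-- monotonicity of the average -/
theorem AvG_le (hp : ∀ k, 0 ≤ p k) {e : (ι → Λ) → ι → ℝ} {G G1 G2 : (ι → Λ) → (ι → ℂ) → ℝ}
    {c1 c2 : ℝ}
    (hG : ∀ l, Integrable (fun v => G l (WV E (e l) v)) (Measure.pi fun x => ν (l x)))
    (hG1 : ∀ l, Integrable (fun v => G1 l (WV E (e l) v)) (Measure.pi fun x => ν (l x)))
    (hG2 : ∀ l, Integrable (fun v => G2 l (WV E (e l) v)) (Measure.pi fun x => ν (l x)))
    (h : ∀ l v, G l (WV E (e l) v) ≤ c1 * G1 l (WV E (e l) v) + c2 * G2 l (WV E (e l) v)) :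
    AvG p ν E e G ≤ c1 * AvG p ν E e G1 + c2 * AvG p ν E e G2 := by
  unfold AvG
  rw [Finset.mul_sum, Finset.mul_sum, ← Finset.sum_add_distrib]
  refine Finset.sum_le_sum fun l _ => ?_
  have hP : 0 ≤ ∏ x, p (l x) := Finset.prod_nonneg fun x _ => hp _
  have h1 : Ex (fun x => ν (l x)) E (e l) (G l) ≤
      c1 * Ex (fun x => ν (l x)) E (e l) (G1 l) + c2 * Ex (fun x => ν (l x)) E (e l) (G2 l) := by
    unfold Ex
    rw [← integral_const_mul, ← integral_const_mul,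
      ← integral_add ((hG1 l).const_mul c1) ((hG2 l).const_mul c2)]
    exact integral_mono (hG l) (((hG1 l).const_mul c1).add ((hG2 l).const_mul c2)) (h l)
  calc (∏ x, p (l x)) * Ex (fun x => ν (l x)) E (e l) (G l)
      ≤ (∏ x, p (l x)) * (c1 * Ex (fun x => ν (l x)) E (e l) (G1 l) +
          c2 * Ex (fun x => ν (l x)) E (e l) (G2 l)) := mul_le_mul_of_nonneg_left h1 hP
    _ = _ := by ring

theorem measurable_KK_WV (E : ℝ) (e : ι → ℝ) (x y : ι) :
    Measurable fun v : ι → ℝ => KK A (WV E e v) x y :=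
  measurable_KK_Wp (a := fun (v : ι → ℝ) x => v x - E) (h := fun _ => e)
    (fun x => measurable_coord_sub E x) (fun x => measurable_const) x y

theorem WV_im' (E : ℝ) (e v : ι → ℝ) (x : ι) : -(WV E e v x).im = e x := by
  rw [WV_eq_Wp, Vale.Agent.P365.J376.Wp_im, neg_neg]

theorem KK_le_inv (hA : A.IsSymm) {e : ι → ℝ} (he : ∀ x, 0 < e x) (v : ι → ℝ) (x a : ι) :
    e a * KK A (WV E e v) x a ≤ (e x)⁻¹ := by
  have h1 := e_mul_KK_mul_e_le hA (Vale.Agent.P365.J376.WV_neg (E := E) he v) x a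
  rw [WV_im', WV_im'] at h1
  rw [← one_div, le_div_iff₀ (he x)]
  linarith

theorem integrable_eKK (hA : A.IsSymm) (m : Measure (ι → ℝ)) [IsFiniteMeasure m] (E : ℝ)
    {e : ι → ℝ} (he : ∀ x, 0 < e x) (x a : ι) :
    Integrable (fun v => (-(WV E e v a).im) * KK A (WV E e v) x a) m := by
  simp only [WV_im']
  refine Integrable.mono' (integrable_const ((e x)⁻¹))
    ((measurable_KK_WV E e x a).const_mul _).aestronglyMeasurable
    (Eventually.of_forall fun v => ?_)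
  rw [Real.norm_eq_abs, abs_of_nonneg (mul_nonneg (he a).le (KK_nonneg _ _))]
  exact KK_le_inv hA he v x a

theorem integrable_mm (hA : A.IsSymm) (m : Measure (ι → ℝ)) [IsFiniteMeasure m] (E : ℝ)
    {e : ι → ℝ} (he : ∀ x, 0 < e x) (x : ι) :
    Integrable (fun v => mm A (WV E e v) x) m := by
  have h1 : (fun v => mm A (WV E e v) x) =
      fun v => ∑ a, (-(WV E e v a).im) * KK A (WV E e v) x a := by
    funext v
    rw [mm_eq hA (Vale.Agent.P365.J376.WV_neg he v)]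
  rw [h1]
  exact integrable_finset_sum _ fun a _ => integrable_eKK hA m E he x a

theorem integrable_Q4 (hA : A.IsSymm) (m : Measure (ι → ℝ)) [IsFiniteMeasure m] (E : ℝ)
    {e : ι → ℝ} (he : ∀ x, 0 < e x) (q : ι → ι → ℝ) (x : ι) :
    Integrable (fun v => Q4 A (WV E e v) q x) m := by
  unfold Q4
  exact integrable_finset_sum _ fun a _ => (integrable_eKK hA m E he x a).mul_const _

/-- **(S1) the static share**: (k4') and the fourth moment energy (X-L0) bound the energy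
content of the static part -/
theorem share_AvG (hA : A.IsSymm) [∀ k, IsProbabilityMeasure (ν k)] (hp : ∀ k, 0 ≤ p k)
    {e u : (ι → Λ) → ι → ℝ} (he : ∀ l x, 0 < e l x) (hu0 : ∀ l x, 0 ≤ u l x)
    (hu : ∀ l x, u l x ≤ e l x) {F : κ → ι → ℝ} {q : ι → ι → ℝ}
    (hq : ∀ x a, ∑ k, (F k a - F k x) ^ 2 ≤ q x a) {R : ℝ} (hR : 0 < R) :
    AvG p ν E e (fun l W => ∑ x, u l x * ∑ k, Mf A W (F k) x) ≤
      R ^ 2 * AvG p ν E e (fun l W => ∑ x, u l x * mm A W x) +
      (R ^ 2)⁻¹ * AvG p ν E e (fun _ W => ∑ x, ∑ y,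
        (-(W x).im) * (-(W y).im) * KK A W x y * q x y ^ 2) := by
  refine AvG_le hp (fun l => integrable_sum_Mf hA _ E (he l) F (u l) (hu0 l))
    (fun l => integrable_finset_sum _ fun x _ => (integrable_mm hA _ E (he l) x).const_mul _)
    (fun l => ?_) (fun l v => ?_)
  · refine integrable_finset_sum _ fun x _ => integrable_finset_sum _ fun y _ => ?_
    simp only [WV_im']
    have h1 := (integrable_eKK hA (Measure.pi fun x => ν (l x)) E (he l) x y).const_mul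
      (e l x * q x y ^ 2)
    simp only [WV_im'] at h1
    refine h1.congr (Eventually.of_forall fun v => ?_)
    simp only
    ring
  · have h1 := share_pt hA (Vale.Agent.P365.J376.WV_neg (E := E) (he l) v) hq hR (hu0 l) (fun x => by
      rw [WV_im']; exact hu l x)
    refine h1.trans (le_of_eq ?_)
    congr 2
    refine Finset.sum_congr rfl fun x _ => ?_
    unfold Q4
    rw [Finset.mul_sum]
    refine Finset.sum_congr rfl fun y _ => ?_
    ring

end avg

/-! ### the torus -/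

section tor

variable {N : ℕ} [NeZero N] {A : Matrix (Tor N) (Tor N) ℝ}
  {Λ : Type*} [Fintype Λ] {p : Λ → ℝ} {ν : Λ → Measure ℝ} {E : ℝ}
  {κ : Type} [Fintype κ]

theorem VecLip.sq_le {F : κ → Tor N → ℝ} {Λf : ℝ} (hF : VecLip F Λf) (x a : Tor N) :
    ∑ k, (F k a - F k x) ^ 2 ≤ Λf ^ 2 * (nrm (x - a) : ℝ) ^ 2 := by
  refine le_trans (le_of_eq ?_) (hF x a)
  exact Finset.sum_congr rfl fun k _ => by ring

/-- **(S2)** torus form, any Lipschitz family: `M1` = (k4'), `M4` = 984's fourth moment -/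
theorem share_tor (hA : A.IsSymm) [∀ k, IsProbabilityMeasure (ν k)] (hp : ∀ k, 0 ≤ p k)
    {e u : (Tor N → Λ) → Tor N → ℝ} (he : ∀ l x, 0 < e l x) (hu0 : ∀ l x, 0 ≤ u l x)
    (hu : ∀ l x, u l x ≤ e l x) {F : κ → Tor N → ℝ} {Λf : ℝ} (hF : VecLip F Λf)
    {M1 M4 : ℝ}
    (h1 : AvG p ν E e (fun l W => ∑ x, u l x * mm A W x) ≤ M1)
    (h4 : AvG p ν E e (fun _ W => ∑ x, ∑ y,
        (-(W x).im) * (-(W y).im) * KK A W x y * (nrm (x - y) : ℝ) ^ 4) ≤ M4)
    {R : ℝ} (hR : 0 < R) :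
    AvG p ν E e (fun l W => ∑ x, u l x * ∑ k, Mf A W (F k) x) ≤
      R ^ 2 * M1 + (R ^ 2)⁻¹ * (Λf ^ 4 * M4) := by
  have h := share_AvG (ν := ν) (E := E) hA hp he hu0 hu (VecLip.sq_le hF) hR
  refine h.trans (add_le_add (mul_le_mul_of_nonneg_left h1 (by positivity))
    (mul_le_mul_of_nonneg_left ?_ (by positivity)))
  refine le_trans (le_of_eq ?_) (mul_le_mul_of_nonneg_left h4 (by positivity))
  unfold AvG Ex
  rw [Finset.mul_sum]
  refine Finset.sum_congr rfl fun l _ => ?_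
  rw [← mul_assoc, mul_comm (Λf ^ 4) (∏ x, p (l x)), mul_assoc]
  congr 1
  rw [← integral_const_mul]
  refine integral_congr_ae (Eventually.of_forall fun v => ?_)
  simp only
  rw [Finset.mul_sum]
  refine Finset.sum_congr rfl fun x _ => ?_
  rw [Finset.mul_sum]
  refine Finset.sum_congr rfl fun y _ => ?_
  ring

end tor

end P365T2.H24
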